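import Vale.Agent.P272.K.AMP.BIG.Defs
import Vale.Agent.P272.K.AMP.Main.Ample

/-!
# AMP-BIG, blocks TKE and EXP (helper232)

Existence (Aubin-Yau) and uniform control of the twisted Kähler-Einstein metrics
`g = (1+b) χ + i∂∂̄u`, `g = i∂∂̄ log det g + t w + b χ`; uniform exponential integrability of the
normalised potentials.
-/

open scoped Manifold ContDiff ComplexOrder Topology
open Complex Set Filter MeasureTheory

set_option linter.all false

noncomputable section

namespace Vale.Agent.P272.K.AMP.BIG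

open INT (intX PP)
open Main

variable {n : ℕ} {X : Type} [TopologicalSpace X] [ChartedSpace (Cm n) X]
  [IsManifold 𝓘(ℂ, Cm n) ω X]
  {w : Chart n X → Cm n → Matrix (Fin n) (Fin n) ℂ}

lemma isKahler_of_closedForm {b : Chart n X → Cm n → Matrix (Fin n) (Fin n) ℂ}
    (hb : INT.IsClosedForm b) (hp : ∀ e x, At e x → (b e (e x)).PosDef) : IsKahler b where
  smooth := hb.smooth
  posDef := hp
  change := hb.form
  closed e x hx i j k := hb.closed e x hx k i j

lemma two_of_inf {f : Cm n → ℝ} {z : Cm n} (h : ContDiffAt ℝ ∞ f z) : ContDiffAt ℝ 2 f z :=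
  h.of_le (by exact WithTop.coe_le_coe.2 le_top)

/-- the canonical metric `log det w + σ` -/
def phiS (w : Chart n X → Cm n → Matrix (Fin n) (Fin n) ℂ) (σ : X → ℝ) :
    Chart n X → Cm n → ℝ :=
  fun e z => Real.log (w e z).det.re + σ (e.symm z)

lemma isCanonical_phiS (hw : IsHermitian w) {σ : X → ℝ} (hσ : SmoothFn (n := n) σ) :
    IsCanonicalMetric (phiS w σ) := by
  have hc := isCanonical_logdet hw
  refine ⟨fun e x hx => (hc.smooth e x hx).add (hσ e x hx), fun e e' x hx hx' => ?_⟩
  have h1 := hc.change e e' x hx hx'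
  simp only [phiS, hx.left_inv, hx'.left_inv]
  rw [h1]; ring

lemma cHess_phiS (hw : IsHermitian w) {σ : X → ℝ} (hσ : SmoothFn (n := n) σ)
    {e : Chart n X} {x : X} (hx : At e x) :
    cHess (phiS w σ e) (e x) = cHess (fun y => Real.log (w e y).det.re) (e x) +
      cHess (fun y => σ (e.symm y)) (e x) :=
  cHess_add (two_of_inf ((isCanonical_logdet hw).smooth e x hx)) (two_of_inf (hσ e x hx))

lemma chiF_eq (hw : IsHermitian w) {t : ℝ} {σ : X → ℝ} (hσ : SmoothFn (n := n) σ)
    {e : Chart n X} {x : X} (hx : At e x) :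
    chiF w t σ e (e x) = cHess (phiS w σ e) (e x) + (t : ℂ) • w e (e x) := by
  rw [cHess_phiS hw hσ hx]
  unfold chiF
  abel

/-- the form `(1+b) (i∂∂̄ (log det w + σ) + t w)` -/
def chiB (w : Chart n X → Cm n → Matrix (Fin n) (Fin n) ℂ) (t b : ℝ) (σ : X → ℝ) :
    Chart n X → Cm n → Matrix (Fin n) (Fin n) ℂ :=
  fun e z => ((1 + b : ℝ) : ℂ) • (cHess (phiS w σ e) z + (t : ℂ) • w e z)

lemma chiB_eq (hw : IsHermitian w) {t b : ℝ} {σ : X → ℝ} (hσ : SmoothFn (n := n) σ)
    {e : Chart n X} {x : X} (hx : At e x) :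
    chiB w t b σ e (e x) = ((1 + b : ℝ) : ℂ) • chiF w t σ e (e x) := by
  rw [chiF_eq hw hσ hx]; rfl

lemma isClosedForm_chiB (hw : IsKahler w) (t b : ℝ) {σ : X → ℝ} (hσ : SmoothFn (n := n) σ) :
    INT.IsClosedForm (chiB w t b σ) :=
  ((INT.isClosedForm_canonical (isCanonical_phiS hw.toIsHermitian hσ)).add
    ((INT.IsKahler.isClosedForm hw).smul (t : ℂ))).smul _

lemma isKahler_chiB (hw : IsKahler w) {t b : ℝ} (hb : 0 ≤ b) {σ : X → ℝ} (hA : Adm w t σ) :
    IsKahler (chiB w t b σ) :=
  isKahler_of_closedForm (isClosedForm_chiB hw t b hA.smooth) fun e x hx => by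
    rw [chiB_eq hw.toIsHermitian hA.smooth hx]
    exact posDef_ofReal_smul (hA.pos e x hx) (by linarith)

/-- existence of the twisted Kähler-Einstein metric -/
theorem exists_TKE (hAY : AubinYau n X) (hw : IsKahler w) {t b : ℝ} (hb : 0 ≤ b) {σ : X → ℝ}
    (hA : Adm w t σ) :
    ∃ u : X → ℝ, SmoothFn (n := n) u ∧
      IsKahler (fun e z => addH (chiB w t b σ) u e z) ∧
      ∀ e x, At e x → Real.log (addH (chiB w t b σ) u e (e x)).det.re =
        Real.log (w e (e x)).det.re + σ x + u x := by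
  have hwH := hw.toIsHermitian
  have hχ := isKahler_chiB hw hb hA
  have hcan := isCanonical_phiS hwH hA.smooth
  obtain ⟨u, hu, hupos, heq⟩ := hAY _ hχ (ricPot (chiB w t b σ) (phiS w σ))
    (smoothFn_ricPot hχ.toIsHermitian hcan)
  refine ⟨u, hu, isKahler_of_closedForm ?_ hupos, fun e x hx => ?_⟩
  · exact (isClosedForm_chiB hw t b hA.smooth).add (INT.isClosedForm_cHess hu)
  · have h3 := heq e x hx
    rw [ricPot_eq hχ.toIsHermitian hcan hx] at h3
    simp only [phiS, hx.left_inv] at h3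
    linarith

section
variable [T2Space X] [CompactSpace X]

lemma vol_TKE (hw : IsKahler w) {t b : ℝ} {σ : X → ℝ} (hσ : SmoothFn (n := n) σ)
    {u : X → ℝ} (hu : SmoothFn (n := n) u) :
    (intX fun e z => (addH (chiB w t b σ) u e z).det.re) = (1 + b) ^ n * PP (phi0 w) w t := by
  have hwH := hw.toIsHermitian
  have h1 : (intX fun e z => (addH (chiB w t b σ) u e z).det.re) =
      intX fun e z => (chiB w t b σ e z).det.re :=
    INT.intX_det_add_cHess (isClosedForm_chiB hw t b hσ) hu
  have h2 : (intX fun e z => (chiB w t b σ e z).det.re) =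
      (1 + b) ^ n * PP (phiS w σ) w t := by
    unfold PP
    rw [← INT.intX_const_mul]
    congr 1
    funext e z
    unfold chiB
    rw [Matrix.det_smul, Fintype.card_fin, ← Complex.ofReal_pow, Complex.re_ofReal_mul]
  rw [h1, h2]
  congr 1
  exact INT.PP_eq (isCanonical_phiS hwH hσ) (isCanonical_logdet hwH)
    (INT.IsKahler.isClosedForm hw) t

/-- the uniform control of the twisted Kähler-Einstein metrics -/
theorem ctrl_TKE [Nonempty X] (hw : IsKahler w) {C t b : ℝ} (hC0 : 0 < C)
    (hC : ∀ e x, At e x →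
      ((C : ℂ) • w e (e x) - cHess (fun z => Real.log (w e z).det.re) (e x)).PosSemidef)
    (ht0 : 0 ≤ t) (ht1 : t ≤ 1) (hb0 : 0 ≤ b) (hb1 : b ≤ 1) {σ : X → ℝ} (hA : Adm w t σ)
    {u : X → ℝ} (hu : SmoothFn (n := n) u)
    (hg : IsKahler (fun e z => addH (chiB w t b σ) u e z))
    (hKE : ∀ e x, At e x → Real.log (addH (chiB w t b σ) u e (e x)).det.re =
        Real.log (w e (e x)).det.re + σ x + u x)
    {v0 V1 : ℝ} (hv0 : v0 ≤ PP (phi0 w) w t) (hV1 : PP (phi0 w) w t ≤ V1) :
    IsTKE w t b σ (fun e z => addH (chiB w t b σ) u e z) ∧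
    CtrlB w (fun e z => addH (chiB w t b σ) u e z) σ b ((n + 1) * (2 * (C + 1))) v0
      (2 ^ n * V1) := by
  have hwH := hw.toIsHermitian
  set g : Chart n X → Cm n → Matrix (Fin n) (Fin n) ℂ :=
    fun e z => addH (chiB w t b σ) u e z with hgdef
  have hlw := isCanonical_logdet hwH
  set Λ : ℝ := (n + 1) * (2 * (C + 1)) with hΛ
  have hn0 : (0 : ℝ) ≤ n := Nat.cast_nonneg n
  have hΛ2 : 2 * (C + 1) ≤ Λ := by rw [hΛ]; nlinarith
  -- `log det g = log det w + σ + u` near each point
  have hev : ∀ e x, At e x → (fun z => Real.log (g e z).det.re)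
      =ᶠ[𝓝 (e x)] fun z => Real.log (w e z).det.re + σ (e.symm z) + u (e.symm z) := by
    intro e x hx
    filter_upwards [hx.nhds_target] with z hz
    have := hKE e _ (At.of_target hx.1 hz)
    rwa [e.right_inv hz] at this
  have hHg : ∀ e x, At e x → cHess (fun z => Real.log (g e z).det.re) (e x) =
      cHess (fun z => Real.log (w e z).det.re) (e x) + cHess (fun y => σ (e.symm y)) (e x) +
        cHess (fun y => u (e.symm y)) (e x) := by
    intro e x hx
    rw [cHess_congr (hev e x hx), cHess_add (two_of_inf ((hlw.smooth e x hx).add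
      (hA.smooth e x hx))) (two_of_inf (hu e x hx)),
      cHess_add (two_of_inf (hlw.smooth e x hx)) (two_of_inf (hA.smooth e x hx))]
  have hgv : ∀ e x, At e x → g e (e x) =
      ((1 + b : ℝ) : ℂ) • (cHess (fun z => Real.log (w e z).det.re) (e x) + (t : ℂ) • w e (e x) +
        cHess (fun y => σ (e.symm y)) (e x)) + cHess (fun y => u (e.symm y)) (e x) := by
    intro e x hx
    show chiB w t b σ e (e x) + _ = _
    rw [chiB_eq hwH hA.smooth hx]
    rfl
  have hTKE : IsTKE w t b σ g := by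
    intro e x hx
    rw [hHg e x hx, hgv e x hx]
    unfold chiF
    push_cast
    module
  -- `Λ w ≥ (1+b) (i∂∂̄ log det w + t w)` for `Λ ≥ 2 (C+1)`
  have hup : ∀ L : ℝ, 2 * (C + 1) ≤ L → ∀ e x, At e x →
      ((L : ℂ) • w e (e x) - ((1 + b : ℝ) : ℂ) •
        (cHess (fun z => Real.log (w e z).det.re) (e x) + (t : ℂ) • w e (e x))).PosSemidef := by
    intro L hL e x hx
    have h1 : (L : ℂ) • w e (e x) - ((1 + b : ℝ) : ℂ) •
        (cHess (fun z => Real.log (w e z).det.re) (e x) + (t : ℂ) • w e (e x)) =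
        ((1 + b : ℝ) : ℂ) •
          ((C : ℂ) • w e (e x) - cHess (fun z => Real.log (w e z).det.re) (e x)) +
          ((L - (1 + b) * (C + t) : ℝ) : ℂ) • w e (e x) := by
      push_cast
      module
    rw [h1]
    have h2 : (1 + b) * (C + t) ≤ 2 * (C + 1) := by nlinarith
    exact (posSemidef_ofReal_smul (hC e x hx) (by linarith)).add
      (posSemidef_ofReal_smul (hw.posDef e x hx).posSemidef (by linarith))
  refine ⟨hTKE, hg, fun e x hx => ?_, hA.smooth, hA.nonpos, hA.zero, fun e x hx => ?_,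
    fun e x hx => ?_, ?_, ?_, ?_⟩
  · -- `Ric(g) ≥ -g`
    have h1 : -cHess (fun z => Real.log (g e z).det.re) (e x) + g e (e x) =
        (t : ℂ) • w e (e x) + (b : ℂ) • chiF w t σ e (e x) := by
      have h2 := hTKE e x hx
      rw [show g e (e x) = cHess (fun z => Real.log (g e z).det.re) (e x) +
        (t : ℂ) • w e (e x) + (b : ℂ) • chiF w t σ e (e x) from h2]
      abel
    show (-cHess (fun z => Real.log (g e z).det.re) (e x) + g e (e x)).PosSemidef
    rw [h1]
    exact (posSemidef_ofReal_smul (hw.posDef e x hx).posSemidef ht0).add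
      (posSemidef_ofReal_smul (hA.pos e x hx).posSemidef hb0)
  · -- `Λ w + i∂∂̄σ ≥ 0`
    have h1 : addH (fun e z => (Λ : ℂ) • w e z) σ e (e x) =
        ((C : ℂ) • w e (e x) - cHess (fun z => Real.log (w e z).det.re) (e x)) +
        chiF w t σ e (e x) + ((Λ - C - t : ℝ) : ℂ) • w e (e x) := by
      unfold addH chiF
      push_cast
      module
    rw [h1]
    exact ((hC e x hx).add (hA.pos e x hx).posSemidef).add
      (posSemidef_ofReal_smul (hw.posDef e x hx).posSemidef (by linarith))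
  · -- `Λ w + i∂∂̄(log det g - log det w + b σ) ≥ g`
    have h0 : cHess (fun z => Real.log (g e z).det.re - Real.log (w e z).det.re) (e x) =
        cHess (fun y => σ (e.symm y)) (e x) + cHess (fun y => u (e.symm y)) (e x) := by
      rw [cHess_sub (two_of_inf ((isCanonical_logdet hg.toIsHermitian).smooth e x hx))
        (two_of_inf (hlw.smooth e x hx)), hHg e x hx]
      abel
    have h1 : (Λ : ℂ) • w e (e x) +
        cHess (fun z => Real.log (g e z).det.re - Real.log (w e z).det.re) (e x) +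
        (b : ℂ) • cHess (fun y => σ (e.symm y)) (e x) - g e (e x) =
        (Λ : ℂ) • w e (e x) - ((1 + b : ℝ) : ℂ) •
        (cHess (fun z => Real.log (w e z).det.re) (e x) + (t : ℂ) • w e (e x)) := by
      rw [h0, hgv e x hx]
      push_cast
      module
    rw [h1]
    exact hup Λ hΛ2 e x hx
  · -- the maximum principle for `Φ = (1+b) σ + u`
    set Φ : X → ℝ := fun x => (1 + b) * σ x + u x with hΦ
    have hΦs : SmoothFn (n := n) Φ := sm_add (sm_const_mul _ hA.smooth) hu
    intro e x hx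
    have hΦx : Real.log (g e (e x)).det.re - Real.log (w e (e x)).det.re + b * σ x = Φ x := by
      rw [show Real.log (g e (e x)).det.re = Real.log (w e (e x)).det.re + σ x + u x from
        hKE e x hx]
      simp only [hΦ]; ring
    rw [hΦx]
    obtain ⟨x0, -, hx0⟩ := isCompact_univ.exists_isMaxOn ⟨x, Set.mem_univ x⟩
      (INT.SmoothFn.continuous hΦs).continuousOn
    have hmax : ∀ y, Φ y ≤ Φ x0 := fun y => hx0 (Set.mem_univ y)
    refine (hmax x).trans ?_
    set c := chartAt (Cm n) x0 with hc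
    have hAt : At c x0 := ⟨chart_mem_atlas _ x0, mem_chart_source _ x0⟩
    have hloc : IsLocalMax (fun z => Φ (c.symm z)) (c x0) := by
      refine Eventually.of_forall fun z => ?_
      simp only [c.left_inv hAt.2]
      exact hmax _
    have h1 := N.neg_cHess_posSemidef (two_of_inf (hΦs c x0 hAt)) hloc
    have h2 : cHess (fun z => Φ (c.symm z)) (c x0) =
        ((1 + b : ℝ) : ℂ) • cHess (fun y => σ (c.symm y)) (c x0) +
          cHess (fun y => u (c.symm y)) (c x0) := by
      have h3 : (fun z => Φ (c.symm z)) = fun z => (fun z => (1 + b) * σ (c.symm z)) z +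
          u (c.symm z) := by funext z; rfl
      rw [h3, cHess_add (two_of_inf (contDiffAt_const.mul (hA.smooth c x0 hAt)))
        (two_of_inf (hu c x0 hAt)), cHess_const_mul _ (two_of_inf (hA.smooth c x0 hAt))]
    have h3 : (((2 * (C + 1) : ℝ) : ℂ) • w c (c x0) - g c (c x0)).PosSemidef := by
      have h4 : ((2 * (C + 1) : ℝ) : ℂ) • w c (c x0) - g c (c x0) =
          (((2 * (C + 1) : ℝ) : ℂ) • w c (c x0) - ((1 + b : ℝ) : ℂ) •
            (cHess (fun z => Real.log (w c z).det.re) (c x0) + (t : ℂ) • w c (c x0))) +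
          -cHess (fun z => Φ (c.symm z)) (c x0) := by
        rw [h2, hgv c x0 hAt]
        push_cast
        module
      rw [h4]
      exact (hup _ le_rfl c x0 hAt).add h1
    have h4 := N.det_re_le (hg.posDef c x0 hAt) h3
    have h5 : 0 < (g c (c x0)).det.re := hg.toIsHermitian.det_re_pos hAt
    have h6 : (((2 * (C + 1) : ℝ) : ℂ) • w c (c x0)).det.re =
        (2 * (C + 1)) ^ n * (w c (c x0)).det.re := by
      rw [Matrix.det_smul, Fintype.card_fin, ← Complex.ofReal_pow, Complex.re_ofReal_mul]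
    have h7 := hwH.det_re_pos hAt
    have hCap : 0 < 2 * (C + 1) := by linarith
    have h8 := Real.log_le_log h5 h4
    rw [h6, Real.log_mul (pow_pos hCap n).ne' h7.ne', Real.log_pow] at h8
    have h9 : Real.log (2 * (C + 1)) ≤ 2 * (C + 1) :=
      (Real.log_le_sub_one_of_pos hCap).trans (by linarith)
    have h10 : (n : ℝ) * Real.log (2 * (C + 1)) ≤ n * (2 * (C + 1)) :=
      mul_le_mul_of_nonneg_left h9 hn0
    have h11 : Real.log (g c (c x0)).det.re = Real.log (w c (c x0)).det.re + σ x0 + u x0 :=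
      hKE c x0 hAt
    have h12 : b * σ x0 ≤ 0 := mul_nonpos_of_nonneg_of_nonpos hb0 (hA.nonpos x0)
    have h13 : Φ x0 = Real.log (g c (c x0)).det.re - Real.log (w c (c x0)).det.re +
        b * σ x0 := by rw [h11]; simp only [hΦ]; ring
    rw [h13, hΛ]
    nlinarith
  all_goals
    have hPP : 0 < PP (phi0 w) w t := by
      rw [show PP (phi0 w) w t = PP (phiS w σ) w t from
        INT.PP_eq (isCanonical_logdet hwH) (isCanonical_phiS hwH hA.smooth)
        (INT.IsKahler.isClosedForm hw) t]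
      refine INT.intX_pos (((INT.isClosedForm_canonical (isCanonical_phiS hwH hA.smooth)).add
        ((INT.IsKahler.isClosedForm hw).smul (t : ℂ))).isDensity) fun e x hx => ?_
      rw [← chiF_eq hwH hA.smooth hx]
      exact (INT.posDef_det_re (hA.pos e x hx)).1
    have hvol : (intX fun e z => (g e z).det.re) = (1 + b) ^ n * PP (phi0 w) w t :=
      vol_TKE hw hA.smooth hu
    have h1 : (1 : ℝ) ≤ (1 + b) ^ n := one_le_pow₀ (by linarith)
    have h2 : (1 + b) ^ n ≤ 2 ^ n := pow_le_pow_left₀ (by linarith) (by linarith) n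
    rw [hvol]
  · nlinarith
  · exact mul_le_mul h2 hV1 hPP.le (by positivity)

/-- **Block TKE** -/
theorem tkeBlock (n : ℕ) (X : Type) [TopologicalSpace X] [ChartedSpace (Cm n) X]
    [IsManifold 𝓘(ℂ, Cm n) ω X] [T2Space X] [CompactSpace X] : TkeBlock n X := by
  intro w hw
  have hwH := hw.toIsHermitian
  have hc := isCanonical_logdet hwH
  have hcl := INT.isClosedForm_canonical hc
  obtain ⟨C, hC0, hC⟩ := exists_comparison' (b := fun e z =>
      cHess (fun z => Real.log (w e z).det.re) z) hwH hcl.smooth hcl.form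
    (fun e x hx => cHess_isHermitian (two_of_inf (hc.smooth e x hx)))
  have hPcont : ContinuousOn (PP (phi0 w) w) (Icc 0 1) := fun t _ =>
    (INT.PP_hasDerivAt hc (INT.IsKahler.isClosedForm hw) t).continuousAt.continuousWithinAt
  obtain ⟨t2, ht2, hmax⟩ := isCompact_Icc.exists_isMaxOn ⟨(0 : ℝ), le_rfl, zero_le_one⟩ hPcont
  refine ⟨(n + 1) * (2 * (C + 1)), 2 ^ n * PP (phi0 w) w t2, by positivity, ?_⟩
  intro t b ht0 ht1 hb0 hb1 σ hA
  haveI : Nonempty X := ⟨hA.zero.choose⟩
  obtain ⟨u, hu, hg, hKE⟩ := exists_TKE (aubinYau n X) hw hb0 hA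
  have hV1 : PP (phi0 w) w t ≤ PP (phi0 w) w t2 := hmax ⟨ht0.le, ht1⟩
  refine ⟨fun e z => addH (chiB w t b σ) u e z, ?_, fun v0 hv0 => ?_⟩
  · exact (ctrl_TKE hw hC0 hC ht0.le ht1 hb0 hb1 hA hu hg hKE le_rfl hV1).1
  · exact (ctrl_TKE hw hC0 hC ht0.le ht1 hb0 hb1 hA hu hg hKE hv0 hV1).2

/-- **Block EXP** -/
theorem expBlock_of (hE : ExpInt n X) : ExpBlock n X := by
  intro w hw Λ
  obtain ⟨α, hα, K, hK⟩ := hE w hw Λ 0
  refine ⟨α / 2, by positivity, |K|, abs_nonneg K, ?_⟩
  intro σ hσ hneg hzero hq b hb0 hb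
  obtain ⟨x0, hx0⟩ := hzero
  have h1 := hK σ hσ hq hneg ⟨x0, by rw [hx0]; simp⟩
  have cσ := INT.SmoothFn.continuous hσ
  refine le_trans (IX_mono (f' := fun x => Real.exp (-(α * σ x))) hw (by fun_prop) (by fun_prop)
    fun x => ?_) (h1.trans (le_abs_self K))
  refine Real.exp_le_exp.2 ?_
  have h2 := hneg x
  nlinarith

theorem expBlock (n : ℕ) (X : Type) [TopologicalSpace X] [T2Space X] [CompactSpace X]
    [ConnectedSpace X] [ChartedSpace (Cm n) X] [IsManifold 𝓘(ℂ, Cm n) ω X] : ExpBlock n X :=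
  expBlock_of (expInt_all n X)

end

end Vale.Agent.P272.K.AMP.BIG
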